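import Vale.Agent.P224.OT.SharpL
import Vale.Agent.P224.PO.LawNumO

/-!
The constants of the sharp bound in dimension five.
-/

namespace Vale.Agent.P224.OT

open Vale.Agent.P224 Vale.Agent.P224.UE Vale.Agent.P224.POS Vale.Agent.P224.SO

lemma oddRatio_two : oddRatio 2 = 48 / 25 * √(3 / 5) := by
  have h1 := oddRatio_pow_four 2
  have h2 : (√(3 / 5) : ℝ) ^ 2 = 3 / 5 := Real.sq_sqrt (by norm_num)
  have h3 : (48 / 25 * √(3 / 5) : ℝ) ^ 4 = oddRatio 2 ^ 4 := by
    rw [h1, mul_pow, show (√(3 / 5) : ℝ) ^ 4 = (√(3 / 5) ^ 2) ^ 2 by ring, h2]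
    norm_num
  have h0 : 0 ≤ oddRatio 2 := by
    unfold oddRatio
    positivity
  exact (pow_left_inj₀ h0 (by positivity) (by norm_num)).1 h3.symm

/-- the least Clifford volume in dimension five -/
theorem clifford_five_le : leastClifford 5 ≤ 48 / 25 * √(3 / 5) * sphereVol 5 := by
  have := odd_bound (k := 2) (by norm_num) oddRatio_two.le
  simpa using this

lemma kap_five_five : kap 5 5 = √2 / 8 := by
  rw [kap_self (by norm_num)]
  have h2 : (√2 : ℝ) ^ 2 = 2 := Real.sq_sqrt (by norm_num)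
  have h0 : (0 : ℝ) < √2 := Real.sqrt_pos.2 (by norm_num)
  have e : -(((5 : ℕ) : ℝ) / 2) = -(2 : ℝ) + -(1 / 2) := by
    push_cast
    norm_num
  rw [e, Real.rpow_add (by norm_num), Real.rpow_neg (by norm_num), Real.rpow_neg (by norm_num),
    ← Real.sqrt_eq_rpow]
  rw [show (2 : ℝ) ^ (2 : ℝ) = 4 by norm_num]
  field_simp
  linarith

lemma kap_five_succ {q : ℕ} (hq : 3 ≤ q) : kap 5 (q + 1) = ((q : ℝ) - 5 / 2) * kap 5 q / q := by
  have := kap_succ (m := 5) (q := q) (by omega)
  simpa using this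

lemma kap_five_four : kap 5 4 = √2 / 3 := by
  have h := kap_five_succ (q := 4) (by norm_num)
  rw [kap_five_five] at h
  norm_num at h
  linarith

lemma kap_five_three : kap 5 3 = 2 * √2 := by
  have h := kap_five_succ (q := 3) (by norm_num)
  rw [kap_five_four] at h
  norm_num at h
  linarith

lemma kap_five_six : kap 5 6 = √2 / 16 := by
  have h := kap_five_succ (q := 5) (by norm_num)
  rw [kap_five_five] at h
  norm_num at h
  linarith

lemma kap_five_seven : kap 5 7 = 7 * √2 / 192 := by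
  have h := kap_five_succ (q := 6) (by norm_num)
  rw [kap_five_six] at h
  norm_num at h
  linarith

lemma kap2_zero (m q : ℕ) : kap2 m 0 q = kap m q := rfl

lemma kap2_succ (m a q : ℕ) : kap2 m (a + 1) q = kap2 m a (q - 1) - kap2 m a q := rfl

end Vale.Agent.P224.OT
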