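import Vale.Agent.P224.OT.Mono
import Vale.Agent.P224.SO.LawG
import Vale.Agent.P224.PO.LawR
import Vale.Agent.P224.SO.Pd3

/-!
The final assembly of a certificate with a parameter: the sharp volume bound in odd dimension.
-/

namespace Vale.Agent.P224.OT

open MeasureTheory Set Filter Function Module Vale.Agent.P224 Vale.Agent.P224.UE
open Vale.Agent.P224.SO Vale.Agent.P224.PO
open Vale.Agent.P224.SM2 hiding ker
open scoped Topology RealInnerProductSpace ENNReal ContDiff Manifold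

set_option linter.unusedSectionVars false

section

variable {X : Type*} [MeasurableSpace X] {E : Type*} [NormedAddCommGroup E]
  [InnerProductSpace ℝ E] [MeasurableSpace E] [BorelSpace E] [SecondCountableTopology E]
  {μ : Measure X} [IsFiniteMeasure μ] {m h : ℕ} {p n : X → E} {C S : ℝ}

/-- the constant of the flux -/
noncomputable def fluxC (m h : ℕ) (l : List SO.GT) : ℝ :=
  (l.map fun t => if t.fl h then t.c * kap2 m t.a t.q else 0).sum

lemma flux_sum (h : ℕ) (e : E) {l : List SO.GT} (hnn : ∀ x, ‖p x‖ = 1 ∧ ‖n x‖ = 1 ∧ ⟪p x, n x⟫ = 0)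
    (hw : ∀ t ∈ l, t.fl h → ∀ x N : E, ‖x‖ = 1 → ‖N‖ = 1 → ⟪x, N⟫ = 0 → t.w (dv x N x N e) = 1) :
    (l.map fun t => if t.fl h then t.c * (kap2 m t.a t.q
        * (S * ∫ y, t.w (dat p n e (y, y)) ∂μ)) else 0).sum
      = S * μ.real univ * fluxC m h l := by
  unfold fluxC
  induction l with
  | nil => simp
  | cons t l ih =>
    have ih' := ih fun u hu => hw u (List.mem_cons_of_mem _ hu)
    rw [List.map_cons, List.sum_cons, List.map_cons, List.sum_cons, ih', mul_add]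
    congr 1
    by_cases hf : t.fl h
    · have e1 : ∀ y, t.w (dat p n e (y, y)) = 1 := fun y =>
        hw t List.mem_cons_self hf _ _ (hnn y).1 (hnn y).2.1 (hnn y).2.2
      rw [if_pos hf, if_pos hf]
      simp only [e1, integral_const, smul_eq_mul, mul_one]
      ring
    · rw [if_neg hf, if_neg hf, mul_zero]

/-- the double integral of `c` is nonnegative -/
lemma int_c_nonneg [CompleteSpace E] (hG : TwoG μ m p n) :
    0 ≤ ∫ q, dat p n (0 : E) q 3 ∂(μ.prod μ) := by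
  have hP := hG.toPts
  have i3 : Integrable (fun q => dat p n (0 : E) q 3) (μ.prod μ) :=
    integrable_param (f := fun d : R9 => d 3) _ (measurable_dat hP 0) (isCompact_KE (bE (0 : E)))
      (dat_mem hP 0) (by fun_prop) (by fun_prop)
  have e1 : ∫ q, dat p n (0 : E) q 3 ∂(μ.prod μ) = ‖∫ x, n x ∂μ‖ ^ 2 := by
    rw [integral_prod_symm _ i3]
    have e2 : ∀ z, ∫ x, dat p n (0 : E) (x, z) 3 ∂μ = ⟪n z, ∫ x, n x ∂μ⟫ := by
      intro z
      have := integral_in (μ := μ) hG.mn hG.nn (n z)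
      refine Eq.trans ?_ (this.trans ?_)
      · rfl
      · exact real_inner_comm _ _
    simp only [e2]
    have e3 := integral_in (μ := μ) hG.mn hG.nn (∫ x, n x ∂μ)
    rw [e3, real_inner_self_eq_norm_sq]
  rw [e1]
  positivity

/-- the law of a certificate with a parameter -/
theorem law_P [CompleteSpace E] (hD : EmbD μ m p n C S) (hmh : m = 2 * h + 1)
    (l : List SO.GT) (hr : ∀ t ∈ l, t.Reg) (hok : ∀ t ∈ l, t.ok h)
    (hw : ∀ t ∈ l, t.fl h → ∀ x N : E, ‖x‖ = 1 → ‖N‖ = 1 → ⟪x, N⟫ = 0 →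
      t.w (dv x N x N 0) = 1)
    {Ro : ℝ → R9 → ℝ} (hRn : ∀ T ∈ Ico (0 : ℝ) 1, Null μ p n 0 (Ro T))
    (hpos : ∀ T ∈ Ioo (0 : ℝ) 1, ∀ x N y w : E, ‖x‖ = 1 → ‖N‖ = 1 → ‖y‖ = 1 → ‖w‖ = 1 →
      ⟪x, N⟫ = 0 → ⟪y, w⟫ = 0 → gS' (l.map GT.v) T (dv x N y w 0) ≤ Ro T (dv x N y w 0))
    {c0 ρ κ : ℝ} (hρ : 0 ≤ ρ) (hκ : 0 ≤ κ) {R : R9 → ℝ} (hRc : Continuous R)
    (hR : 0 ≤ ∫ q, R (dat p n 0 q) ∂(μ.prod μ))
    (h0 : ∀ x N y w : E, ‖x‖ = 1 → ‖N‖ = 1 → ‖y‖ = 1 → ‖w‖ = 1 → ⟪x, N⟫ = 0 → ⟪y, w⟫ = 0 →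
      (l.map fun t => t.φ 0 * t.Q (dv x N y w 0)).sum
        ≤ c0 - ρ * R (dv x N y w 0) - κ * dv x N y w (0 : E) 3 + Ro 0 (dv x N y w 0)) :
    S * μ.real univ * fluxC m h l ≤ c0 * μ.real univ ^ 2 := by
  have hG := hD.toTwoG
  have hP := hG.toPts
  have key := law_G hD hmh (0 : E) l hr hok (fun T hT => ⟨_, hRn T ⟨hT.1.le, hT.2⟩,
    fun x N y w a1 a2 a3 a4 a5 a6 => hpos T hT x N y w a1 a2 a3 a4 a5 a6⟩)
  rw [flux_sum (S := S) h (0 : E) (fun x => ⟨hD.np x, hD.nn x, hD.pn x⟩) hw] at key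
  refine key.trans ?_
  have hint : ∀ {G : R9 → ℝ}, Continuous G → Integrable (fun q => G (dat p n 0 q)) (μ.prod μ) :=
    fun hG' => integrable_param _ (measurable_dat hP 0) (isCompact_KE (bE (0 : E)))
      (dat_mem hP 0) hG'.measurable hG'.continuousOn
  have iR : Integrable (fun q => R (dat p n 0 q)) (μ.prod μ) := hint hRc
  have i3 : Integrable (fun q => dat p n (0 : E) q 3) (μ.prod μ) :=
    hint (G := fun d => d 3) (by fun_prop)
  have iN := hRn 0 ⟨le_rfl, one_pos⟩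
  have iG : Integrable (fun q => (l.map fun t => t.φ 0 * t.Q (dat p n 0 q)).sum)
      (μ.prod μ) := by
    have hcont : Continuous fun d : R9 => (l.map fun t => t.φ 0 * t.Q d).sum := by
      clear key hint iR i3 iN h0 hpos hok hw
      induction l with
      | nil => simpa using continuous_const
      | cons t l ih =>
        simp only [List.map_cons, List.sum_cons]
        exact (continuous_const.mul (GT.continuous_Q (hr t List.mem_cons_self).hw)).add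
          (ih fun u hu => hr u (List.mem_cons_of_mem _ hu))
    exact hint hcont
  have hK := int_c_nonneg hG
  have hle : ∫ q, (l.map fun t => t.φ 0 * t.Q (dat p n 0 q)).sum ∂(μ.prod μ)
      ≤ ∫ q, (c0 - ρ * R (dat p n 0 q) - κ * dat p n (0 : E) q 3
          + Ro 0 (dat p n 0 q)) ∂(μ.prod μ) := by
    refine integral_mono iG ?_ fun q => ?_
    · exact (((integrable_const _).sub (iR.const_mul _)).sub (i3.const_mul _)).add iN.1
    · exact h0 _ _ _ _ (hD.np _) (hD.nn _) (hD.np _) (hD.nn _) (hD.pn _) (hD.pn _)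
  refine hle.trans ?_
  have hAA : (μ.prod μ).real univ = μ.real univ ^ 2 := by
    rw [measureReal_def, measureReal_def, ← univ_prod_univ, Measure.prod_prod,
      ENNReal.toReal_mul, sq]
  have j1 : Integrable (fun q => ρ * R (dat p n 0 q)) (μ.prod μ) := iR.const_mul _
  have j2 : Integrable (fun q => κ * dat p n (0 : E) q 3) (μ.prod μ) := i3.const_mul _
  have j3 : Integrable (fun q => c0 - ρ * R (dat p n 0 q)) (μ.prod μ) :=
    (integrable_const _).sub j1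
  have j4 : Integrable (fun q => c0 - ρ * R (dat p n 0 q) - κ * dat p n (0 : E) q 3)
    (μ.prod μ) := j3.sub j2
  rw [integral_add j4 iN.1, iN.2, integral_sub j3 j2, integral_sub (integrable_const _) j1,
    integral_const_mul, integral_const_mul, integral_const, smul_eq_mul, hAA]
  nlinarith [mul_nonneg hρ hR, mul_nonneg hκ hK]

/-- the symmetrised rows are null -/
lemma null_sym (hG : TwoG μ m p n) (Q : SCert) {T : ℝ} (hT : T ∈ Ico (0 : ℝ) 1) :
    Null μ p n 0 (fun d => (Rs m Q T d + Rs m Q T (sw9 d)) / 2) := by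
  have h1 := ((null_Rs hG 0 hT Q).add (null_Rs hG 0 hT Q).swap).const_mul (1 / 2)
  refine ⟨?_, ?_⟩
  · refine h1.1.congr (Eventually.of_forall fun q => ?_)
    simp only
    ring
  · rw [← h1.2]
    refine integral_congr_ae (Eventually.of_forall fun q => ?_)
    simp only
    ring

end

section

variable {V W M : Type*} [NormedAddCommGroup V] [InnerProductSpace ℝ V] [FiniteDimensional ℝ V]
  [NormedAddCommGroup W] [InnerProductSpace ℝ W] [FiniteDimensional ℝ W]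
  [TopologicalSpace M] [ChartedSpace V M]
  [MeasurableSpace V] [BorelSpace V] [MeasurableSpace M] [BorelSpace M]
  [IsManifold 𝓘(ℝ, V) ∞ M] [CompactSpace M] [T2Space M] [ConnectedSpace M]
  [MeasurableSpace W] [BorelSpace W]

/-- The volume bound from a certificate with a parameter. -/
theorem main_P {m h : ℕ} (hmh : m = 2 * h + 1) (_ : 2 ≤ m) (hV : finrank ℝ V = m)
    (hW : finrank ℝ W = finrank ℝ V + 2)
    {F : M → W} (hF : SphImm V F) (hmin : ∀ x n, IsUnitNormal V F x n → meanCurv V F x n = 0)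
    {a : ℝ} (ha2 : a ≤ 2 * sphereVol m)
    (l : List SO.GT) (hr : ∀ t ∈ l, t.Reg) (hok : ∀ t ∈ l, t.ok h)
    (hw : ∀ t ∈ l, t.fl h → ∀ x N : W, ‖x‖ = 1 → ‖N‖ = 1 → ⟪x, N⟫ = 0 →
      t.w (dv x N x N 0) = 1)
    {Ro : ℝ → R9 → ℝ} (hRn : ∀ N : M → W, TwoG (volM V F) m F N → ∀ T ∈ Ico (0 : ℝ) 1,
      Null (volM V F) F N 0 (Ro T))
    (hpos : ∀ T ∈ Ioo (0 : ℝ) 1, ∀ x N y w : W, ‖x‖ = 1 → ‖N‖ = 1 → ‖y‖ = 1 → ‖w‖ = 1 →
      ⟪x, N⟫ = 0 → ⟪y, w⟫ = 0 → gS' (l.map GT.v) T (dv x N y w 0) ≤ Ro T (dv x N y w 0))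
    {c0 ρ κ : ℝ} (hc0 : 0 < c0) (hρ : 0 ≤ ρ) (hκ : 0 ≤ κ) {R : R9 → ℝ} (hRc : Continuous R)
    (hres : ∀ N : M → W, TwoG (volM V F) m F N →
      0 ≤ ∫ q : M × M, ⟪F q.1, F q.2⟫ * ⟪F q.1, N q.2⟫ ∂((volM V F).prod (volM V F)) →
      0 ≤ ∫ q, R (dat F N 0 q) ∂((volM V F).prod (volM V F)))
    (h0 : ∀ x N y w : W, ‖x‖ = 1 → ‖N‖ = 1 → ‖y‖ = 1 → ‖w‖ = 1 → ⟪x, N⟫ = 0 → ⟪y, w⟫ = 0 →
      (l.map fun t => t.φ 0 * t.Q (dv x N y w 0)).sum
        ≤ c0 - ρ * R (dv x N y w 0) - κ * dv x N y w (0 : W) 3 + Ro 0 (dv x N y w 0))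
    (hac : a * c0 ≤ fluxC m h l * sphereVol m) :
    ENNReal.ofReal a ≤ volM V F univ := by
  have hm : 0 < finrank ℝ V := by omega
  have hfin : IsFiniteMeasure (volM V F) := isFiniteMeasure_volM hF
  refine ENNReal.ofReal_le_of_le_toReal ?_
  rw [← measureReal_def]
  by_cases hinj : Injective F
  swap
  · have h2 := TwoSide.two_le (by omega) hW hF hmin hinj
    rw [hV] at h2
    linarith
  obtain ⟨N, hNs, hN, htop, hor⟩ : ∃ N : M → W, ContMDiff 𝓘(ℝ, V) 𝓘(ℝ, W) ∞ N ∧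
      (∀ x, IsUnitNormal V F x (N x)) ∧ ‖∫ x, N x ∂(volM V F)‖ ≤ sphereVol (finrank ℝ V) ∧
      0 ≤ ∫ q : M × M, ⟪F q.1, F q.2⟫ * ⟪F q.1, N q.2⟫ ∂((volM V F).prod (volM V F)) := by
    obtain ⟨N, hNs, hN, htop⟩ := TP.exists_normal_le hW hm hF hinj
    rcases SO.orient (μ := volM V F) (p := F) (n := N) with h | h
    · exact ⟨N, hNs, hN, htop, h⟩
    · refine ⟨fun x => -N x, hNs.neg, fun x => ⟨by rw [norm_neg]; exact (hN x).1,
        by rw [inner_neg_right, (hN x).2.1, neg_zero], fun i => by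
          rw [inner_neg_right, (hN x).2.2 i, neg_zero]⟩, ?_, h⟩
      rw [integral_neg, norm_neg]
      exact htop
  obtain ⟨B, hE⟩ := embD_of_inj hm hW hF hmin hNs hN hinj
  rw [hV] at hE
  have hS0 : 0 < sphereVol m := sphereVol_pos' _
  have key := law_P hE hmh l hr hok hw (hRn N hE.toTwoG) hpos hρ hκ hRc (hres N hE.toTwoG hor) h0
  have hA0 : 0 < (volM V F).real univ :=
    ENNReal.toReal_pos (volM_pos_of_isOpen hW hF isOpen_univ univ_nonempty).ne'
      (measure_ne_top _ _)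
  have h1 : sphereVol m * fluxC m h l ≤ c0 * (volM V F).real univ := by
    refine le_of_mul_le_mul_right ?_ hA0
    calc sphereVol m * fluxC m h l * (volM V F).real univ
        = sphereVol m * (volM V F).real univ * fluxC m h l := by ring
      _ ≤ _ := key
      _ = _ := by ring
  have h2 : a * c0 ≤ (volM V F).real univ * c0 := by linarith
  exact le_of_mul_le_mul_right h2 hc0

/-- Dimension five: the volume bound from a certificate with a parameter, the quadratic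
resource and the third moments. The data: value terms `l`, rows `Sc` for `T` in `(0, 1)` and at
`T = 0`. -/
theorem main5_P (hV : finrank ℝ V = 5) (hW : finrank ℝ W = finrank ℝ V + 2)
    {F : M → W} (hF : SphImm V F) (hmin : ∀ x n, IsUnitNormal V F x n → meanCurv V F x n = 0)
    (hng : ¬ ∃ a : W, a ≠ 0 ∧ ∀ x, ⟪F x, a⟫ = 0)
    {a : ℝ} (ha2 : a ≤ 2 * sphereVol 5)
    (l : List SO.GT) (hr : ∀ t ∈ l, t.Reg) (hok : ∀ t ∈ l, t.ok 2)
    (hw : ∀ t ∈ l, t.fl 2 → ∀ x N : W, ‖x‖ = 1 → ‖N‖ = 1 → ⟪x, N⟫ = 0 →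
      t.w (dv x N x N 0) = 1)
    (Sc : SCert)
    (hpos : ∀ T ∈ Ioo (0 : ℝ) 1, ∀ x N y w : W, ‖x‖ = 1 → ‖N‖ = 1 → ‖y‖ = 1 → ‖w‖ = 1 →
      ⟪x, N⟫ = 0 → ⟪y, w⟫ = 0 → gS' (l.map GT.v) T (dv x N y w 0)
        ≤ (Rs 5 Sc T (dv x N y w 0) + Rs 5 Sc T (sw9 (dv x N y w 0))) / 2)
    {c0 ρ κ κ3 c : ℝ} (hc0 : 0 < c0) (hρ : 0 ≤ ρ) (hκ : 0 ≤ κ) (hκ3 : 0 ≤ κ3)
    (hc : 0 < c) (hc6 : 1 ≤ 6 * c ^ 2)
    (h0 : ∀ x N y w : W, ‖x‖ = 1 → ‖N‖ = 1 → ‖y‖ = 1 → ‖w‖ = 1 → ⟪x, N⟫ = 0 → ⟪y, w⟫ = 0 →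
      (l.map fun t => t.φ 0 * t.Q (dv x N y w 0)).sum
        ≤ c0 - (ρ * RF (-(187 / 100)) 14 c (dv x N y w 0) + κ3 * dv x N y w (0 : W) 0 ^ 3)
          - κ * dv x N y w (0 : W) 3
          + (Rs 5 Sc 0 (dv x N y w 0) + Rs 5 Sc 0 (sw9 (dv x N y w 0))) / 2)
    (hac : a * c0 ≤ fluxC 5 2 l * sphereVol 5) :
    ENNReal.ofReal a ≤ volM V F univ := by
  have hfin : IsFiniteMeasure (volM V F) := isFiniteMeasure_volM hF
  have hne : Nonempty M := inferInstance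
  refine main_P (h := 2) (by norm_num) (by norm_num) hV hW hF hmin ha2 l hr hok hw
    (Ro := fun T d => (Rs 5 Sc T d + Rs 5 Sc T (sw9 d)) / 2)
    (R := fun d => ρ * RF (-(187 / 100)) 14 c d + κ3 * d 0 ^ 3) (ρ := 1)
    (fun N hN T hT => null_sym hN Sc hT) hpos hc0 zero_le_one hκ
    ((continuous_const.mul (continuous_RF _ _ _)).add (by fun_prop))
    (fun N h hor => ?_) (fun x N y w a1 a2 a3 a4 a5 a6 => by
      rw [one_mul]
      exact h0 x N y w a1 a2 a3 a4 a5 a6) hac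
  have hP := h.toPts
  have i1 : Integrable (fun q => RF (-(187 / 100)) 14 c (dat F N 0 q))
      ((volM V F).prod (volM V F)) :=
    integrable_param _ (measurable_dat hP 0) (isCompact_KE (bE (0 : W)))
      (dat_mem hP 0) (continuous_RF _ _ _).measurable (continuous_RF _ _ _).continuousOn
  have i2 : Integrable (fun q => dat F N (0 : W) q 0 ^ 3) ((volM V F).prod (volM V F)) :=
    integrable_param (f := fun d : R9 => d 0 ^ 3) _ (measurable_dat hP 0)
      (isCompact_KE (bE (0 : W))) (dat_mem hP 0) (by fun_prop) (by fun_prop)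
  have h1 := res5 (by omega) h (sp_of_hng hng) hor hc hc6 0
  have h2 : 0 ≤ ∫ q, dat F N (0 : W) q 0 ^ 3 ∂((volM V F).prod (volM V F)) :=
    SO.k00 ⟨h.mp, h.np⟩
  rw [integral_add (i1.const_mul _) (i2.const_mul _), integral_const_mul, integral_const_mul]
  exact add_nonneg (mul_nonneg hρ h1) (mul_nonneg hκ3 h2)

end

end Vale.Agent.P224.OT
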