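import Vale.Agent.P224.OT.Cst5

/-!
The constants of the sharp bound in dimension seven.
-/

namespace Vale.Agent.P224.OT

open Vale.Agent.P224 Vale.Agent.P224.UE Vale.Agent.P224.POS Vale.Agent.P224.SO

lemma oddRatio_three : oddRatio 3 = 768 / 343 * √(3 / 7) := by
  have h1 := oddRatio_pow_four 3
  have h2 : (√(3 / 7) : ℝ) ^ 2 = 3 / 7 := Real.sq_sqrt (by norm_num)
  have h3 : (768 / 343 * √(3 / 7) : ℝ) ^ 4 = oddRatio 3 ^ 4 := by
    rw [h1, mul_pow, show (√(3 / 7) : ℝ) ^ 4 = (√(3 / 7) ^ 2) ^ 2 by ring, h2]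
    norm_num
  have h0 : 0 ≤ oddRatio 3 := by
    unfold oddRatio
    positivity
  exact (pow_left_inj₀ h0 (by positivity) (by norm_num)).1 h3.symm

/-- the least Clifford volume in dimension seven -/
theorem clifford_seven_le : leastClifford 7 ≤ 768 / 343 * √(3 / 7) * sphereVol 7 := by
  have := odd_bound (k := 3) (by norm_num) oddRatio_three.le
  simpa using this

/-- the constant lies below the cap of the static certificates -/
lemma ratio_seven_lt : 768 / 343 * √(3 / 7) < (1465819 / 1000000 : ℝ) := by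
  have h2 : (√(3 / 7) : ℝ) < 6546538 / 10000000 := by
    rw [Real.sqrt_lt' (by norm_num)]
    norm_num
  nlinarith

lemma kap_seven_seven : kap 7 7 = √2 / 16 := by
  rw [kap_self (by norm_num)]
  have h2 : (√2 : ℝ) ^ 2 = 2 := Real.sq_sqrt (by norm_num)
  have h0 : (0 : ℝ) < √2 := Real.sqrt_pos.2 (by norm_num)
  have e : -(((7 : ℕ) : ℝ) / 2) = -(3 : ℝ) + -(1 / 2) := by
    push_cast
    norm_num
  rw [e, Real.rpow_add (by norm_num), Real.rpow_neg (by norm_num), Real.rpow_neg (by norm_num),
    ← Real.sqrt_eq_rpow]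
  rw [show (2 : ℝ) ^ (3 : ℝ) = 8 by norm_num]
  field_simp
  linarith

lemma kap_seven_succ {q : ℕ} (hq : 4 ≤ q) : kap 7 (q + 1) = ((q : ℝ) - 7 / 2) * kap 7 q / q := by
  have := kap_succ (m := 7) (q := q) (by omega)
  simpa using this

lemma kap_seven_six : kap 7 6 = 3 * √2 / 20 := by
  have h := kap_seven_succ (q := 6) (by norm_num)
  rw [kap_seven_seven] at h
  norm_num at h
  linarith

lemma kap_seven_five : kap 7 5 = √2 / 2 := by
  have h := kap_seven_succ (q := 5) (by norm_num)
  rw [kap_seven_six] at h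
  norm_num at h
  linarith

lemma kap_seven_four : kap 7 4 = 4 * √2 := by
  have h := kap_seven_succ (q := 4) (by norm_num)
  rw [kap_seven_five] at h
  norm_num at h
  linarith

lemma kap_seven_eight : kap 7 8 = √2 / 32 := by
  have h := kap_seven_succ (q := 7) (by norm_num)
  rw [kap_seven_seven] at h
  norm_num at h
  linarith

lemma kap_seven_nine : kap 7 9 = 9 * √2 / 512 := by
  have h := kap_seven_succ (q := 8) (by norm_num)
  rw [kap_seven_eight] at h
  norm_num at h
  linarith

lemma kap_seven_ten : kap 7 10 = 11 * √2 / 1024 := by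
  have h := kap_seven_succ (q := 9) (by norm_num)
  rw [kap_seven_nine] at h
  norm_num at h
  linarith

lemma kap_seven_eleven : kap 7 11 = 143 * √2 / 20480 := by
  have h := kap_seven_succ (q := 10) (by norm_num)
  rw [kap_seven_ten] at h
  norm_num at h
  linarith

end Vale.Agent.P224.OT
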