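import Vale.Agent.P224.OT.Cst7

/-!
The constants of the sharp bound in the odd dimensions from nine to fifteen.
-/

namespace Vale.Agent.P224.OT

open Vale.Agent.P224 Vale.Agent.P224.UE Vale.Agent.P224.POS Vale.Agent.P224.SO

lemma sq_mul_le {a b c : ℝ} (ha : 0 < a) (hc : 0 < c) (h : a ^ 2 * b < c ^ 2) : a * √b < c := by
  rw [← Real.sqrt_sq ha.le, ← Real.sqrt_mul (by positivity), Real.sqrt_lt' hc]
  exact h

lemma le_sq_mul {a b c : ℝ} (ha : 0 < a) (hc : 0 < c) (h : c ^ 2 < a ^ 2 * b) : c < a * √b := by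
  rw [← Real.sqrt_sq ha.le, ← Real.sqrt_mul (by positivity), Real.lt_sqrt hc.le]
  exact h

lemma kap_self_odd (k : ℕ) : kap (2 * k + 1) (2 * k + 1) = √2 / 2 ^ (k + 1) := by
  rw [kap_self (by omega)]
  have h2 : (√2 : ℝ) ^ 2 = 2 := Real.sq_sqrt (by norm_num)
  have h0 : (0 : ℝ) < √2 := Real.sqrt_pos.2 (by norm_num)
  have e : -(((2 * k + 1 : ℕ) : ℝ) / 2) = -((k : ℕ) : ℝ) + -(1 / 2) := by
    push_cast
    ring
  rw [e, Real.rpow_add (by norm_num), Real.rpow_neg (by norm_num), Real.rpow_neg (by norm_num),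
    ← Real.sqrt_eq_rpow, Real.rpow_natCast]
  have h3 : (2 : ℝ) ^ k ≠ 0 := by positivity
  rw [pow_succ]
  field_simp
  linarith

lemma kap_step {m : ℕ} (q : ℕ) (hq : m < 2 * q) :
    kap m (q + 1) = ((q : ℝ) - m / 2) * kap m q / q := by
  have := kap_succ (m := m) (q := q) hq
  simpa using this

lemma ratio_7_lt : 768 / 343 * √(3 / 7) < (14658137 / 10000000 : ℝ) :=
  sq_mul_le (by norm_num) (by norm_num) (by norm_num)

lemma ratio_7_gt : (14656 / 10000 : ℝ) < 9999 / 10000 * (768 / 343 * √(3 / 7)) := by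
  have := le_sq_mul (a := 768 / 343) (b := 3 / 7) (c := 146574658 / 100000000) (by norm_num)
    (by norm_num) (by norm_num)
  norm_num at this ⊢
  linarith

lemma oddRatio_4 : oddRatio 4 = 12800 / 6561 * √(5 / 9) := by
  have h1 := oddRatio_pow_four 4
  have h2 : (√(5 / 9) : ℝ) ^ 2 = 5 / 9 := Real.sq_sqrt (by norm_num)
  have h3 : (12800 / 6561 * √(5 / 9) : ℝ) ^ 4 = oddRatio 4 ^ 4 := by
    rw [h1, mul_pow, show (√(5 / 9) : ℝ) ^ 4 = (√(5 / 9) ^ 2) ^ 2 by ring, h2]
    norm_num
  have h0 : 0 ≤ oddRatio 4 := by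
    unfold oddRatio
    positivity
  exact (pow_left_inj₀ h0 (by positivity) (by norm_num)).1 h3.symm

/-- the least Clifford volume in dimension nine -/
theorem clifford_nine_le : leastClifford 9 ≤ 12800 / 6561 * √(5 / 9) * sphereVol 9 := by
  have := odd_bound (k := 4) (by norm_num) oddRatio_4.le
  simpa using this

lemma ratio_9_lt : 12800 / 6561 * √(5 / 9) < (363533 / 250000 : ℝ) :=
  sq_mul_le (by norm_num) (by norm_num) (by norm_num)

lemma ratio_9_gt : (14539 / 10000 : ℝ) < 9999 / 10000 * (12800 / 6561 * √(5 / 9)) := by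
  have := le_sq_mul (a := 12800 / 6561) (b := 5 / 9) (c := 14539 / 9999) (by norm_num) (by norm_num) (by norm_num)
  norm_num at this ⊢
  linarith

lemma kap_9_9 : kap 9 9 = 1 / 32 * √2 := by
  have h := kap_self_odd 4
  norm_num at h
  rw [h]
  ring

lemma kap_9_8 : kap 9 8 = 1 / 14 * √2 := by
  have h := kap_step (m := 9) 8 (by norm_num)
  rw [kap_9_9] at h
  norm_num at h
  linarith

lemma kap_9_7 : kap 9 7 = 1 / 5 * √2 := by
  have h := kap_step (m := 9) 7 (by norm_num)
  rw [kap_9_8] at h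
  norm_num at h
  linarith

lemma kap_9_6 : kap 9 6 = 4 / 5 * √2 := by
  have h := kap_step (m := 9) 6 (by norm_num)
  rw [kap_9_7] at h
  norm_num at h
  linarith

lemma kap_9_5 : kap 9 5 = 8 * √2 := by
  have h := kap_step (m := 9) 5 (by norm_num)
  rw [kap_9_6] at h
  norm_num at h
  linarith

lemma kap_9_10 : kap 9 10 = 1 / 64 * √2 := by
  have h := kap_step (m := 9) 9 (by norm_num)
  rw [kap_9_9] at h
  norm_num at h
  linarith

lemma kap_9_11 : kap 9 11 = 11 / 1280 * √2 := by
  have h := kap_step (m := 9) 10 (by norm_num)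
  rw [kap_9_10] at h
  norm_num at h
  linarith

lemma kap_9_12 : kap 9 12 = 13 / 2560 * √2 := by
  have h := kap_step (m := 9) 11 (by norm_num)
  rw [kap_9_11] at h
  norm_num at h
  linarith

lemma oddRatio_5 : oddRatio 5 = 345600 / 161051 * √(5 / 11) := by
  have h1 := oddRatio_pow_four 5
  have h2 : (√(5 / 11) : ℝ) ^ 2 = 5 / 11 := Real.sq_sqrt (by norm_num)
  have h3 : (345600 / 161051 * √(5 / 11) : ℝ) ^ 4 = oddRatio 5 ^ 4 := by
    rw [h1, mul_pow, show (√(5 / 11) : ℝ) ^ 4 = (√(5 / 11) ^ 2) ^ 2 by ring, h2]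
    norm_num
  have h0 : 0 ≤ oddRatio 5 := by
    unfold oddRatio
    positivity
  exact (pow_left_inj₀ h0 (by positivity) (by norm_num)).1 h3.symm

/-- the least Clifford volume in dimension eleven -/
theorem clifford_eleven_le : leastClifford 11 ≤ 345600 / 161051 * √(5 / 11) * sphereVol 11 := by
  have := odd_bound (k := 5) (by norm_num) oddRatio_5.le
  simpa using this

lemma ratio_11_lt : 345600 / 161051 * √(5 / 11) < (1446769 / 1000000 : ℝ) :=
  sq_mul_le (by norm_num) (by norm_num) (by norm_num)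

lemma ratio_11_gt : (904 / 625 : ℝ) < 4999 / 5000 * (345600 / 161051 * √(5 / 11)) := by
  have := le_sq_mul (a := 345600 / 161051) (b := 5 / 11) (c := 7232 / 4999) (by norm_num) (by norm_num) (by norm_num)
  norm_num at this ⊢
  linarith

lemma kap_11_11 : kap 11 11 = 1 / 64 * √2 := by
  have h := kap_self_odd 5
  norm_num at h
  rw [h]
  ring

lemma kap_11_10 : kap 11 10 = 5 / 144 * √2 := by
  have h := kap_step (m := 11) 10 (by norm_num)
  rw [kap_11_11] at h
  norm_num at h
  linarith

lemma kap_11_9 : kap 11 9 = 5 / 56 * √2 := by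
  have h := kap_step (m := 11) 9 (by norm_num)
  rw [kap_11_10] at h
  norm_num at h
  linarith

lemma kap_11_8 : kap 11 8 = 2 / 7 * √2 := by
  have h := kap_step (m := 11) 8 (by norm_num)
  rw [kap_11_9] at h
  norm_num at h
  linarith

lemma kap_11_7 : kap 11 7 = 4 / 3 * √2 := by
  have h := kap_step (m := 11) 7 (by norm_num)
  rw [kap_11_8] at h
  norm_num at h
  linarith

lemma kap_11_6 : kap 11 6 = 16 * √2 := by
  have h := kap_step (m := 11) 6 (by norm_num)
  rw [kap_11_7] at h
  norm_num at h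
  linarith

lemma kap_11_12 : kap 11 12 = 1 / 128 * √2 := by
  have h := kap_step (m := 11) 11 (by norm_num)
  rw [kap_11_11] at h
  norm_num at h
  linarith

lemma kap_11_13 : kap 11 13 = 13 / 3072 * √2 := by
  have h := kap_step (m := 11) 12 (by norm_num)
  rw [kap_11_12] at h
  norm_num at h
  linarith

lemma kap_11_14 : kap 11 14 = 5 / 2048 * √2 := by
  have h := kap_step (m := 11) 13 (by norm_num)
  rw [kap_11_13] at h
  norm_num at h
  linarith

lemma oddRatio_6 : oddRatio 6 = 9483264 / 4826809 * √(7 / 13) := by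
  have h1 := oddRatio_pow_four 6
  have h2 : (√(7 / 13) : ℝ) ^ 2 = 7 / 13 := Real.sq_sqrt (by norm_num)
  have h3 : (9483264 / 4826809 * √(7 / 13) : ℝ) ^ 4 = oddRatio 6 ^ 4 := by
    rw [h1, mul_pow, show (√(7 / 13) : ℝ) ^ 4 = (√(7 / 13) ^ 2) ^ 2 by ring, h2]
    norm_num
  have h0 : 0 ≤ oddRatio 6 := by
    unfold oddRatio
    positivity
  exact (pow_left_inj₀ h0 (by positivity) (by norm_num)).1 h3.symm

/-- the least Clifford volume in dimension thirteen -/
theorem clifford_thirteen_le : leastClifford 13 ≤ 9483264 / 4826809 * √(7 / 13) * sphereVol 13 := by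
  have := odd_bound (k := 6) (by norm_num) oddRatio_6.le
  simpa using this

lemma ratio_13_lt : 9483264 / 4826809 * √(7 / 13) < (1441701 / 1000000 : ℝ) :=
  sq_mul_le (by norm_num) (by norm_num) (by norm_num)

lemma ratio_13_gt : (3603 / 2500 : ℝ) < 9997 / 10000 * (9483264 / 4826809 * √(7 / 13)) := by
  have := le_sq_mul (a := 9483264 / 4826809) (b := 7 / 13) (c := 14412 / 9997) (by norm_num) (by norm_num) (by norm_num)
  norm_num at this ⊢
  linarith

lemma kap_13_13 : kap 13 13 = 1 / 128 * √2 := by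
  have h := kap_self_odd 6
  norm_num at h
  rw [h]
  ring

lemma kap_13_12 : kap 13 12 = 3 / 176 * √2 := by
  have h := kap_step (m := 13) 12 (by norm_num)
  rw [kap_13_13] at h
  norm_num at h
  linarith

lemma kap_13_11 : kap 13 11 = 1 / 24 * √2 := by
  have h := kap_step (m := 13) 11 (by norm_num)
  rw [kap_13_12] at h
  norm_num at h
  linarith

lemma kap_13_10 : kap 13 10 = 5 / 42 * √2 := by
  have h := kap_step (m := 13) 10 (by norm_num)
  rw [kap_13_11] at h
  norm_num at h
  linarith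

lemma kap_13_9 : kap 13 9 = 3 / 7 * √2 := by
  have h := kap_step (m := 13) 9 (by norm_num)
  rw [kap_13_10] at h
  norm_num at h
  linarith

lemma kap_13_8 : kap 13 8 = 16 / 7 * √2 := by
  have h := kap_step (m := 13) 8 (by norm_num)
  rw [kap_13_9] at h
  norm_num at h
  linarith

lemma kap_13_7 : kap 13 7 = 32 * √2 := by
  have h := kap_step (m := 13) 7 (by norm_num)
  rw [kap_13_8] at h
  norm_num at h
  linarith

lemma kap_13_14 : kap 13 14 = 1 / 256 * √2 := by
  have h := kap_step (m := 13) 13 (by norm_num)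
  rw [kap_13_13] at h
  norm_num at h
  linarith

lemma kap_13_15 : kap 13 15 = 15 / 7168 * √2 := by
  have h := kap_step (m := 13) 14 (by norm_num)
  rw [kap_13_14] at h
  norm_num at h
  linarith

lemma kap_13_16 : kap 13 16 = 17 / 14336 * √2 := by
  have h := kap_step (m := 13) 15 (by norm_num)
  rw [kap_13_15] at h
  norm_num at h
  linarith

lemma oddRatio_7 : oddRatio 7 = 359661568 / 170859375 * √(7 / 15) := by
  have h1 := oddRatio_pow_four 7
  have h2 : (√(7 / 15) : ℝ) ^ 2 = 7 / 15 := Real.sq_sqrt (by norm_num)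
  have h3 : (359661568 / 170859375 * √(7 / 15) : ℝ) ^ 4 = oddRatio 7 ^ 4 := by
    rw [h1, mul_pow, show (√(7 / 15) : ℝ) ^ 4 = (√(7 / 15) ^ 2) ^ 2 by ring, h2]
    norm_num
  have h0 : 0 ≤ oddRatio 7 := by
    unfold oddRatio
    positivity
  exact (pow_left_inj₀ h0 (by positivity) (by norm_num)).1 h3.symm

/-- the least Clifford volume in dimension fifteen -/
theorem clifford_fifteen_le : leastClifford 15 ≤ 359661568 / 170859375 * √(7 / 15) * sphereVol 15 := by
  have := odd_bound (k := 7) (by norm_num) oddRatio_7.le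
  simpa using this

lemma ratio_15_lt : 359661568 / 170859375 * √(7 / 15) < (719 / 500 : ℝ) :=
  sq_mul_le (by norm_num) (by norm_num) (by norm_num)

lemma ratio_15_gt : (23 / 16 : ℝ) < 9997 / 10000 * (359661568 / 170859375 * √(7 / 15)) := by
  have := le_sq_mul (a := 359661568 / 170859375) (b := 7 / 15) (c := 14375 / 9997) (by norm_num) (by norm_num) (by norm_num)
  norm_num at this ⊢
  linarith

lemma kap_15_15 : kap 15 15 = 1 / 256 * √2 := by
  have h := kap_self_odd 7
  norm_num at h
  rw [h]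
  ring

lemma kap_15_14 : kap 15 14 = 7 / 832 * √2 := by
  have h := kap_step (m := 15) 14 (by norm_num)
  rw [kap_15_15] at h
  norm_num at h
  linarith

lemma kap_15_13 : kap 15 13 = 7 / 352 * √2 := by
  have h := kap_step (m := 15) 13 (by norm_num)
  rw [kap_15_14] at h
  norm_num at h
  linarith

lemma kap_15_12 : kap 15 12 = 7 / 132 * √2 := by
  have h := kap_step (m := 15) 12 (by norm_num)
  rw [kap_15_13] at h
  norm_num at h
  linarith

lemma kap_15_11 : kap 15 11 = 1 / 6 * √2 := by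
  have h := kap_step (m := 15) 11 (by norm_num)
  rw [kap_15_12] at h
  norm_num at h
  linarith

lemma kap_15_10 : kap 15 10 = 2 / 3 * √2 := by
  have h := kap_step (m := 15) 10 (by norm_num)
  rw [kap_15_11] at h
  norm_num at h
  linarith

lemma kap_15_9 : kap 15 9 = 4 * √2 := by
  have h := kap_step (m := 15) 9 (by norm_num)
  rw [kap_15_10] at h
  norm_num at h
  linarith

lemma kap_15_8 : kap 15 8 = 64 * √2 := by
  have h := kap_step (m := 15) 8 (by norm_num)
  rw [kap_15_9] at h
  norm_num at h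
  linarith

lemma kap_15_16 : kap 15 16 = 1 / 512 * √2 := by
  have h := kap_step (m := 15) 15 (by norm_num)
  rw [kap_15_15] at h
  norm_num at h
  linarith

lemma kap_15_17 : kap 15 17 = 17 / 16384 * √2 := by
  have h := kap_step (m := 15) 16 (by norm_num)
  rw [kap_15_16] at h
  norm_num at h
  linarith

lemma kap_15_18 : kap 15 18 = 19 / 32768 * √2 := by
  have h := kap_step (m := 15) 17 (by norm_num)
  rw [kap_15_17] at h
  norm_num at h
  linarith

lemma ratio_9_lt7 : 12800 / 6561 * √(5 / 9) < (2908263 / 2000000 : ℝ) :=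
  sq_mul_le (by norm_num) (by norm_num) (by norm_num)

lemma ratio_11_lt7 : 345600 / 161051 * √(5 / 11) < (14467683 / 10000000 : ℝ) :=
  sq_mul_le (by norm_num) (by norm_num) (by norm_num)

lemma ratio_13_lt7 : 9483264 / 4826809 * √(7 / 13) < (7208503 / 5000000 : ℝ) :=
  sq_mul_le (by norm_num) (by norm_num) (by norm_num)

lemma ratio_15_lt7 : 359661568 / 170859375 * √(7 / 15) < (14379991 / 10000000 : ℝ) :=
  sq_mul_le (by norm_num) (by norm_num) (by norm_num)

end Vale.Agent.P224.OT
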