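import Vale.Agent.P224.UE.Half3

/-!
Flows in the parameter `T` for closed minimal hypersurfaces: value terms, rows, certificates.
-/

namespace Vale.Agent.P224.OT

open MeasureTheory Set Filter Function Module Vale.Agent.P224 Vale.Agent.P224.UE
open Vale.Agent.P224.SM2 hiding ker
open scoped Topology RealInnerProductSpace

set_option linter.unusedSectionVars false

/-- a value term: the kernel `(1 - T s)⁻ᵠ` and the monomial
`(1 - s) ^ b t ^ i1 p ^ i2 c ^ ic n1 ^ a1 n2 ^ a2 x1 ^ j1 x2 ^ j2 E ^ l` -/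
structure VTerm where
  b : ℕ
  q : ℕ
  i1 : ℕ
  i2 : ℕ
  ic : ℕ
  a1 : ℕ
  a2 : ℕ
  j1 : ℕ
  j2 : ℕ
  l : ℕ
  deriving DecidableEq

/-- the monomial without the power of `1 - s` -/
def VTerm.mono (t : VTerm) (d : R9) : ℝ :=
  d 1 ^ t.i1 * d 2 ^ t.i2 * d 3 ^ t.ic
    * (d 4 ^ t.a1 * d 5 ^ t.a2 * (d 6 ^ t.j1 * d 7 ^ t.j2) * d 8 ^ t.l)

/-- the function of a value term at the parameter `T` -/
noncomputable def VTerm.g (t : VTerm) (T : ℝ) (d : R9) : ℝ :=
  (1 - d 0) ^ t.b * SM2.ker T t.q (d 0) * t.mono d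

/-- the derivative in `T` -/
noncomputable def VTerm.g' (t : VTerm) (T : ℝ) (d : R9) : ℝ :=
  (1 - d 0) ^ t.b * (t.q * d 0 * SM2.ker T (t.q + 1) (d 0)) * t.mono d

/-- a row term: the row `fam` for the function `s ^ a (1 - T s)⁻ᵠ t ^ i x1 ^ j` and the weight
`n2 ^ k x2 ^ d E ^ l` -/
structure STerm where
  fam : Fin 6
  a : ℕ
  q : ℕ
  i : ℕ
  j : ℕ
  d : ℕ
  k : ℕ
  l : ℕ
  deriving DecidableEq

/-- the row of a term -/
noncomputable def STerm.R (m : ℕ) (t : STerm) (T : ℝ) (d : R9) : ℝ :=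
  (d 8 ^ t.l * (d 5 ^ t.k * d 7 ^ t.d)) * rG t.fam m (sk T t.a t.q) (sk' T t.a t.q) t.i t.j d

/-- the value part of a certificate: terms with coefficient functions and their derivatives -/
abbrev VCert := List (VTerm × (ℝ → ℝ) × (ℝ → ℝ))

/-- the rows of a certificate with their coefficient functions -/
abbrev SCert := List (STerm × (ℝ → ℝ))

/-- the integrand of the functional -/
noncomputable def Gs (V : VCert) (T : ℝ) (d : R9) : ℝ := (V.map fun x => x.2.1 T * x.1.g T d).sum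

/-- the derivative of the integrand -/
noncomputable def Gs' (V : VCert) (T : ℝ) (d : R9) : ℝ :=
  (V.map fun x => x.2.2 T * x.1.g T d + x.2.1 T * x.1.g' T d).sum

/-- the sum of the rows -/
noncomputable def Rs (m : ℕ) (S : SCert) (T : ℝ) (d : R9) : ℝ :=
  (S.map fun x => x.2 T * x.1.R m T d).sum

/-- the functional -/
noncomputable def Phi {X E : Type*} [MeasurableSpace X] [NormedAddCommGroup E]
    [InnerProductSpace ℝ E] (μ : Measure X) (p n : X → E) (e : E) (V : VCert) (T : ℝ) : ℝ :=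
  ∫ z, Gs V T (dat p n e z) ∂(μ.prod μ)

lemma continuous_mono (t : VTerm) : Continuous t.mono := by
  unfold VTerm.mono
  fun_prop

lemma measurable_g (t : VTerm) (T : ℝ) : Measurable (t.g T) := by
  have h1 := measurable_ker T t.q
  have h2 := (continuous_mono t).measurable
  unfold VTerm.g
  fun_prop

lemma measurable_g' (t : VTerm) (T : ℝ) : Measurable (t.g' T) := by
  have h1 := measurable_ker T (t.q + 1)
  have h2 := (continuous_mono t).measurable
  unfold VTerm.g'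
  fun_prop

lemma contOn_g (t : VTerm) (B : ℝ) : ContinuousOn (uncurry t.g) (Ico 0 1 ×ˢ KE B) := by
  have h1 := contOn_kerE2 t.q B
  have h2 : ContinuousOn (fun z : ℝ × R9 => t.mono z.2) (Ico 0 1 ×ˢ KE B) :=
    ((continuous_mono t).comp continuous_snd).continuousOn
  have h3 : ContinuousOn (fun z : ℝ × R9 => (1 - z.2 0) ^ t.b) (Ico 0 1 ×ˢ KE B) := by fun_prop
  exact (h3.mul h1).mul h2

lemma contOn_g' (t : VTerm) (B : ℝ) : ContinuousOn (uncurry t.g') (Ico 0 1 ×ˢ KE B) := by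
  have h1 := contOn_kerE2 (t.q + 1) B
  have h2 : ContinuousOn (fun z : ℝ × R9 => t.mono z.2) (Ico 0 1 ×ˢ KE B) :=
    ((continuous_mono t).comp continuous_snd).continuousOn
  have h3 : ContinuousOn (fun z : ℝ × R9 => (1 - z.2 0) ^ t.b) (Ico 0 1 ×ˢ KE B) := by fun_prop
  have h4 : ContinuousOn (fun z : ℝ × R9 => (t.q : ℝ) * z.2 0) (Ico 0 1 ×ˢ KE B) := by fun_prop
  exact (h3.mul (h4.mul h1)).mul h2

lemma hasDerivAt_g (t : VTerm) {T : ℝ} (hT : T ∈ Ico (0 : ℝ) 1) {d : R9}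
    (hd : d 0 ∈ Icc (-1 : ℝ) 1) : HasDerivAt (fun T => t.g T d) (t.g' T d) T := by
  have h0 : (1 : ℝ) - T * d 0 ≠ 0 := (one_sub_pos' hT hd.2).ne'
  have h4 : HasDerivAt (fun T : ℝ => SM2.ker T t.q (d 0))
      (t.q * d 0 * SM2.ker T (t.q + 1) (d 0)) T := hasDerivAt_ker_T h0
  exact (h4.const_mul _).mul_const _

end Vale.Agent.P224.OT
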