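import Vale.Agent.P224.SO.LawS

/-!
The limits of the kernel integrals at `T = 1`, in terms of `√(1 - T ^ 2)`.
-/

namespace Vale.Agent.P224.OT

open MeasureTheory Set Filter Function
open Vale.Agent.P224.UE Vale.Agent.P224.UG Vale.Agent.P224.SO
open scoped Topology RealInnerProductSpace

set_option linter.unusedSectionVars false

/-- the constant of the kernel `(1 - s) ^ b (1 - T s) ^ (-q)` -/
noncomputable def kapU (m b q : ℕ) : ℝ := 2 ^ ((q : ℝ) - b - (m : ℝ) / 2) * kap2 m b q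

lemma kapU_self {m : ℕ} (hm : 0 < m) : kapU m 0 m = 1 := by
  unfold kapU
  simp only [kap2]
  rw [kap_self hm, ← Real.rpow_add (by norm_num)]
  have : (m : ℝ) - ((0 : ℕ) : ℝ) - (m : ℝ) / 2 + -((m : ℝ) / 2) = 0 := by
    push_cast
    ring
  rw [this, Real.rpow_zero]

lemma kapU_succ {m q : ℕ} (hq : m < 2 * q) :
    kapU m 0 (q + 1) = (2 * (q : ℝ) - m) * kapU m 0 q / q := by
  unfold kapU
  simp only [kap2]
  rw [kap_succ hq]
  have e : ((q + 1 : ℕ) : ℝ) - ((0 : ℕ) : ℝ) - (m : ℝ) / 2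
      = ((q : ℝ) - ((0 : ℕ) : ℝ) - (m : ℝ) / 2) + 1 := by
    push_cast
    ring
  rw [e, Real.rpow_add_one (by norm_num)]
  ring

lemma kapU_rec (m b : ℕ) {q : ℕ} (hq : 1 ≤ q) :
    kapU m (b + 1) q = kapU m b (q - 1) - kapU m b q / 2 := by
  obtain ⟨r, rfl⟩ : ∃ r, q = r + 1 := ⟨q - 1, by omega⟩
  unfold kapU
  simp only [kap2, Nat.add_sub_cancel]
  have e1 : ((r + 1 : ℕ) : ℝ) - ((b + 1 : ℕ) : ℝ) - (m : ℝ) / 2 = (r : ℝ) - b - (m : ℝ) / 2 := by
    push_cast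
    ring
  have e2 : ((r + 1 : ℕ) : ℝ) - (b : ℝ) - (m : ℝ) / 2 = ((r : ℝ) - b - (m : ℝ) / 2) + 1 := by
    push_cast
    ring
  rw [e1, e2, Real.rpow_add_one (by norm_num)]
  ring

section

variable {X : Type*} [MeasurableSpace X]
  {E : Type*} [NormedAddCommGroup E]
  [InnerProductSpace ℝ E] [MeasurableSpace E] [BorelSpace E] [SecondCountableTopology E]
  {μ : Measure X} [IsFiniteMeasure μ] {m : ℕ} {p n : X → E} {C S : ℝ}

lemma kp_pow_eq {T : ℝ} (hT : T ∈ Ico (0 : ℝ) 1) (r : ℕ) :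
    kp T ^ r = (1 - T) ^ ((r : ℝ) / 2) * (1 + T) ^ ((r : ℝ) / 2) := by
  have h1 : 0 < 1 - T := by linarith [hT.2]
  have h2 : 0 < 1 + T := by linarith [hT.1]
  have e : (1 : ℝ) - T ^ 2 = (1 - T) * (1 + T) := by ring
  unfold kp
  rw [e, ← Real.mul_rpow h1.le h2.le, Real.rpow_div_two_eq_sqrt _ (mul_pos h1 h2).le,
    Real.rpow_natCast]

lemma one_add_tendsto (α : ℝ) :
    Tendsto (fun T : ℝ => (1 + T) ^ α) (𝓝[<] 1) (𝓝 (2 ^ α)) := by
  have h1 : ContinuousAt (fun T : ℝ => (1 + T) ^ α) 1 := by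
    refine ContinuousAt.rpow_const (by fun_prop) (Or.inl ?_)
    norm_num
  have h2 := h1.tendsto
  have e : (1 : ℝ) + 1 = 2 := by norm_num
  rw [e] at h2
  exact h2.mono_left nhdsWithin_le_nhds

/-- the limit of the critical integrals -/
theorem lim_flux (hD : EmbD μ m p n C S) (hm : 0 < m) (e : E) {Q : R9 → ℝ} (hQ : Continuous Q)
    {b q : ℕ} (hq : m < 2 * (q - b)) :
    Tendsto (fun T => kp T ^ (2 * (q - b) - m) * ∫ z, (1 - dat p n e z 0) ^ b
        * SM2.ker T q (dat p n e z 0) * Q (dat p n e z) ∂(μ.prod μ)) (𝓝[<] 1)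
      (𝓝 (kapU m b q * (S * ∫ y, Q (dat p n e (y, y)) ∂μ))) := by
  have h1 := flux_aq hD hm e hQ b (q := q) (by omega)
  have h2 := (one_add_tendsto ((q : ℝ) - b - (m : ℝ) / 2)).mul h1
  have e1 : (2 : ℝ) ^ ((q : ℝ) - b - (m : ℝ) / 2) * (kap2 m b q
      * (S * ∫ y, Q (dat p n e (y, y)) ∂μ)) = kapU m b q * (S * ∫ y, Q (dat p n e (y, y)) ∂μ) := by
    unfold kapU
    ring
  rw [e1] at h2
  refine h2.congr' ?_
  have h0 : ∀ᶠ T in 𝓝[<] (1 : ℝ), T ∈ Ioo (0 : ℝ) 1 := Ioo_mem_nhdsLT one_pos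
  filter_upwards [h0] with T hT
  rw [kp_pow_eq ⟨hT.1.le, hT.2⟩]
  have e2 : ((2 * (q - b) - m : ℕ) : ℝ) / 2 = (q : ℝ) - b - (m : ℝ) / 2 := by
    have h3 : b ≤ q := by omega
    rw [Nat.cast_sub (by omega), Nat.cast_mul, Nat.cast_sub h3]
    push_cast
    ring
  rw [e2]
  have e3 : ∀ z, (1 - dat p n e z 0) ^ b * SM2.ker T q (dat p n e z 0) * Q (dat p n e z)
      = (1 - dat p n e z 0) ^ b * Q (dat p n e z) * SM2.ker T q (dat p n e z 0) := fun z => by ring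
  simp only [e3]
  ring

/-- the limit of the other integrals, odd dimension and odd exponent -/
theorem lim_null (hD : EmbD μ m p n C S) {h k : ℕ} (hmh : m = 2 * h + 1) (e : E) {Q : R9 → ℝ}
    {B : ℝ} {b q j : ℕ} (hB : ∀ z, |Q (dat p n e z)| ≤ B * (1 - dat p n e z 0) ^ j)
    (hq : q ≤ h + k + b + j) :
    Tendsto (fun T => kp T ^ (2 * k + 1) * ∫ z, (1 - dat p n e z 0) ^ b
        * SM2.ker T q (dat p n e z 0) * Q (dat p n e z) ∂(μ.prod μ)) (𝓝[<] 1) (𝓝 0) := by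
  have hm : 0 < m := by omega
  have hP := hD.toTwoG.toPts
  have key := null_aq hD hm e (Q := fun d => (1 - d 0) ^ b * Q d) (r := b + j) (q := q)
    (b := h + k) (B := B) (fun z => by
      have hs := dat0_mem hP e z
      have h0 : 0 ≤ 1 - dat p n e z 0 := by linarith [hs.2]
      rw [abs_mul, abs_pow, abs_of_nonneg h0, pow_add]
      calc (1 - dat p n e z 0) ^ b * |Q (dat p n e z)|
          ≤ (1 - dat p n e z 0) ^ b * (B * (1 - dat p n e z 0) ^ j) :=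
            mul_le_mul_of_nonneg_left (hB z) (pow_nonneg h0 b)
        _ = _ := by ring)
    (by omega) (by omega) (φ := fun T => kp T ^ (2 * k + 1)) (K := 2 ^ ((k : ℝ) + 1 / 2)) (by
      have h0 : ∀ᶠ T in 𝓝[<] (1 : ℝ), T ∈ Ioo (0 : ℝ) 1 := Ioo_mem_nhdsLT one_pos
      filter_upwards [h0] with T hT
      rw [kp_pow_eq ⟨hT.1.le, hT.2⟩]
      have h1 : 0 < 1 - T := by linarith [hT.2]
      have h2 : 0 < 1 + T := by linarith [hT.1]
      have e1 : ((2 * k + 1 : ℕ) : ℝ) / 2 = (k : ℝ) + 1 / 2 := by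
        push_cast
        ring
      have e2 : ((h + k : ℕ) : ℝ) + 1 - (m : ℝ) / 2 = (k : ℝ) + 1 / 2 := by
        rw [hmh]
        push_cast
        ring
      rw [e1, e2, abs_of_nonneg (by positivity), mul_comm]
      refine mul_le_mul_of_nonneg_right ?_ (by positivity)
      exact Real.rpow_le_rpow h2.le (by linarith [hT.2]) (by positivity))
  refine key.congr fun T => ?_
  congr 1
  refine integral_congr_ae (Eventually.of_forall fun z => ?_)
  simp only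
  ring

end

end Vale.Agent.P224.OT
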