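import Vale.Agent.P224.OT.Def

/-!
The functional of a certificate is decreasing.
-/

namespace Vale.Agent.P224.OT

open MeasureTheory Set Filter Function Module Vale.Agent.P224 Vale.Agent.P224.UE
open Vale.Agent.P224.SM2 hiding ker
open scoped Topology RealInnerProductSpace

set_option linter.unusedSectionVars false

section

variable {X : Type*} [MeasurableSpace X] {E : Type*} [NormedAddCommGroup E]
  [InnerProductSpace ℝ E] [MeasurableSpace E] [BorelSpace E] [SecondCountableTopology E]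

variable {μ : Measure X} [IsFiniteMeasure μ] {m : ℕ} {p n : X → E}

/-- a row is null -/
lemma STerm.null (t : STerm) (h : TwoG μ m p n) (e : E) {T : ℝ} (hT : T ∈ Ico (0 : ℝ) 1) :
    Null μ p n e (t.R m T) := by
  have hw : Continuous (uncurry fun a b : ℝ => a ^ t.k * b ^ t.d) := by
    simp only [Function.uncurry_def]
    fun_prop
  have h1 := (h.null_sk e hT t.a t.q t.fam t.i t.j hw).const_mul ((‖e‖ ^ 2) ^ t.l)
  have h8 : ∀ q, dat p n e q 8 = ‖e‖ ^ 2 := by
    intro q
    change ⟪e, e⟫ = _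
    rw [real_inner_self_eq_norm_sq]
  have h2 : ∀ q, t.R m T (dat p n e q) = (‖e‖ ^ 2) ^ t.l * ((dat p n e q 5) ^ t.k
      * (dat p n e q 7) ^ t.d * rG t.fam m (sk T t.a t.q) (sk' T t.a t.q) t.i t.j
        (dat p n e q)) := by
    intro q
    unfold STerm.R
    rw [h8]
    ring
  refine ⟨?_, ?_⟩
  · simp only [h2]
    exact h1.1
  · simp only [h2]
    exact h1.2

/-- the rows are null -/
lemma null_Rs (h : TwoG μ m p n) (e : E) {T : ℝ} (hT : T ∈ Ico (0 : ℝ) 1) (S : SCert) :
    Null μ p n e (Rs m S T) := by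
  induction S with
  | nil =>
    have e1 : Rs m [] T = fun _ => 0 := by
      funext d
      simp [Rs]
    rw [e1]
    exact Null.zero e
  | cons x S ih =>
    have e1 : Rs m (x :: S) T = fun d => x.2 T * x.1.R m T d + Rs m S T d := by
      funext d
      simp [Rs]
    rw [e1]
    exact ((x.1.null h e hT).const_mul _).add ih

lemma measurable_Gs (V : VCert) (T : ℝ) : Measurable (Gs V T) := by
  induction V with
  | nil =>
    have e1 : Gs [] T = fun _ => 0 := by
      funext d
      simp [Gs]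
    rw [e1]
    exact measurable_const
  | cons x V ih =>
    have e1 : Gs (x :: V) T = fun d => x.2.1 T * x.1.g T d + Gs V T d := by
      funext d
      simp [Gs]
    rw [e1]
    exact ((measurable_g x.1 T).const_mul _).add ih

lemma measurable_Gs' (V : VCert) (T : ℝ) : Measurable (Gs' V T) := by
  induction V with
  | nil =>
    have e1 : Gs' [] T = fun _ => 0 := by
      funext d
      simp [Gs']
    rw [e1]
    exact measurable_const
  | cons x V ih =>
    have e1 : Gs' (x :: V) T = fun d => (x.2.2 T * x.1.g T d + x.2.1 T * x.1.g' T d)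
        + Gs' V T d := by
      funext d
      simp [Gs']
    rw [e1]
    exact (((measurable_g x.1 T).const_mul _).add ((measurable_g' x.1 T).const_mul _)).add ih

lemma contOn_Gs {V : VCert} (hc : ∀ x ∈ V, ContinuousOn x.2.1 (Ico 0 1)) (B : ℝ) :
    ContinuousOn (uncurry (Gs V)) (Ico 0 1 ×ˢ KE B) := by
  induction V with
  | nil =>
    have e1 : uncurry (Gs []) = fun _ : ℝ × R9 => (0 : ℝ) := by
      funext z
      simp [Gs, uncurry]
    rw [e1]
    exact continuousOn_const
  | cons x V ih =>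
    have e1 : uncurry (Gs (x :: V)) = fun z => x.2.1 z.1 * (uncurry x.1.g) z
        + (uncurry (Gs V)) z := by
      funext z
      simp [Gs, uncurry]
    rw [e1]
    have h1 : ContinuousOn (fun z : ℝ × R9 => x.2.1 z.1) (Ico 0 1 ×ˢ KE B) :=
      (hc x List.mem_cons_self).comp continuousOn_fst fun z hz => hz.1
    exact (h1.mul (contOn_g x.1 B)).add (ih fun y hy => hc y (List.mem_cons_of_mem _ hy))

lemma contOn_Gs' {V : VCert} (hc : ∀ x ∈ V, ContinuousOn x.2.1 (Ico 0 1))
    (hc' : ∀ x ∈ V, ContinuousOn x.2.2 (Ioo 0 1)) (B : ℝ) :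
    ContinuousOn (uncurry (Gs' V)) (Ioo 0 1 ×ˢ KE B) := by
  induction V with
  | nil =>
    have e1 : uncurry (Gs' []) = fun _ : ℝ × R9 => (0 : ℝ) := by
      funext z
      simp [Gs', uncurry]
    rw [e1]
    exact continuousOn_const
  | cons x V ih =>
    have e1 : uncurry (Gs' (x :: V)) = fun z => (x.2.2 z.1 * (uncurry x.1.g) z
        + x.2.1 z.1 * (uncurry x.1.g') z) + (uncurry (Gs' V)) z := by
      funext z
      simp [Gs', uncurry]
    rw [e1]
    have hs : Ioo (0 : ℝ) 1 ×ˢ KE B ⊆ Ico 0 1 ×ˢ KE B :=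
      prod_mono Ioo_subset_Ico_self subset_rfl
    have h1 : ContinuousOn (fun z : ℝ × R9 => x.2.1 z.1) (Ioo 0 1 ×ˢ KE B) :=
      ((hc x List.mem_cons_self).mono Ioo_subset_Ico_self).comp continuousOn_fst fun z hz => hz.1
    have h2 : ContinuousOn (fun z : ℝ × R9 => x.2.2 z.1) (Ioo 0 1 ×ˢ KE B) :=
      (hc' x List.mem_cons_self).comp continuousOn_fst fun z hz => hz.1
    exact ((h2.mul ((contOn_g x.1 B).mono hs)).add (h1.mul ((contOn_g' x.1 B).mono hs))).add
      (ih (fun y hy => hc y (List.mem_cons_of_mem _ hy))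
        fun y hy => hc' y (List.mem_cons_of_mem _ hy))

lemma hasDerivAt_Gs {V : VCert} {T : ℝ} (hT : T ∈ Ioo (0 : ℝ) 1)
    (hd : ∀ x ∈ V, HasDerivAt x.2.1 (x.2.2 T) T) {d : R9} (h0 : d 0 ∈ Icc (-1 : ℝ) 1) :
    HasDerivAt (fun T => Gs V T d) (Gs' V T d) T := by
  induction V with
  | nil => simpa [Gs, Gs'] using hasDerivAt_const T (0 : ℝ)
  | cons x V ih =>
    have e1 : (fun T => Gs (x :: V) T d) = fun T => x.2.1 T * x.1.g T d + Gs V T d := by
      funext T
      simp [Gs]
    have e2 : Gs' (x :: V) T d = (x.2.2 T * x.1.g T d + x.2.1 T * x.1.g' T d) + Gs' V T d := by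
      simp [Gs']
    rw [e1, e2]
    exact ((hd x List.mem_cons_self).mul (hasDerivAt_g x.1 ⟨hT.1.le, hT.2⟩ h0)).add
      (ih fun y hy => hd y (List.mem_cons_of_mem _ hy))

/-- **The functional is decreasing.** -/
theorem Phi_antitone (h : TwoG μ m p n) (e : E) {V : VCert} {S : SCert}
    (hc : ∀ x ∈ V, ContinuousOn x.2.1 (Ico 0 1))
    (hc' : ∀ x ∈ V, ContinuousOn x.2.2 (Ioo 0 1))
    (hd : ∀ x ∈ V, ∀ T ∈ Ioo (0 : ℝ) 1, HasDerivAt x.2.1 (x.2.2 T) T)
    (hpos : ∀ T ∈ Ioo (0 : ℝ) 1, ∀ x N y w : E, ‖x‖ = 1 → ‖N‖ = 1 → ‖y‖ = 1 → ‖w‖ = 1 →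
      ⟪x, N⟫ = 0 → ⟪y, w⟫ = 0 →
      Gs' V T (dv x N y w e) + Rs m S T (dv x N y w e)
        + (Gs' V T (sw9 (dv x N y w e)) + Rs m S T (sw9 (dv x N y w e))) ≤ 0) :
    AntitoneOn (Phi μ p n e V) (Ico 0 1) := by
  have hsw : Continuous sw9 := by
    refine continuous_pi fun i => ?_
    fin_cases i <;> simp only [sw9] <;> exact continuous_apply _
  have hK : ∀ d ∈ KE (bE e), sw9 d ∈ KE (bE e) := by
    intro d hd1
    refine ⟨⟨fun i => ?_, fun i => ?_⟩, hd1.2⟩
    · fin_cases i <;> exact hd1.1.1 _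
    · fin_cases i <;> exact hd1.1.2 _
  -- the symmetrized functional
  have hanti := h.toTwoE.antitone e (g := fun T d => Gs V T d + Gs V T (sw9 d))
    (g' := fun T d => Gs' V T d + Gs' V T (sw9 d))
    (fun T => (measurable_Gs V T).add ((measurable_Gs V T).comp hsw.measurable))
    (fun T => (measurable_Gs' V T).add ((measurable_Gs' V T).comp hsw.measurable))
    (by
      refine (contOn_Gs hc _).add ?_
      have h1 : ContinuousOn (fun z : ℝ × R9 => (z.1, sw9 z.2)) (Ico 0 1 ×ˢ KE (bE e)) :=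
        (continuous_fst.prodMk (hsw.comp continuous_snd)).continuousOn
      exact (contOn_Gs hc (bE e)).comp h1 fun z hz => ⟨hz.1, hK _ hz.2⟩)
    (by
      refine (contOn_Gs' hc hc' _).add ?_
      have h1 : ContinuousOn (fun z : ℝ × R9 => (z.1, sw9 z.2)) (Ioo 0 1 ×ˢ KE (bE e)) :=
        (continuous_fst.prodMk (hsw.comp continuous_snd)).continuousOn
      exact (contOn_Gs' hc hc' (bE e)).comp h1 fun z hz => ⟨hz.1, hK _ hz.2⟩)
    (fun T hT d hd1 => (hasDerivAt_Gs hT (fun x hx => hd x hx T hT) hd1.2).add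
      (hasDerivAt_Gs hT (fun x hx => hd x hx T hT) (hK d hd1).2))
    (fun T hT => ⟨fun d => -(Rs m S T d + Rs m S T (sw9 d)),
      ((null_Rs h e ⟨hT.1.le, hT.2⟩ S).add (null_Rs h e ⟨hT.1.le, hT.2⟩ S).swap).neg,
      fun x N y w hx hN hy hw hxN hyw => by
        have := hpos T hT x N y w hx hN hy hw hxN hyw
        linarith⟩)
  have hint : ∀ T ∈ Ico (0 : ℝ) 1, Integrable (fun q => Gs V T (dat p n e q)) (μ.prod μ) :=
    fun T hT => integrable_param (μ.prod μ) (measurable_dat h.toPts e) (isCompact_KE (bE e))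
      (dat_mem h.toPts e) (measurable_Gs V T) (contOn_slice (contOn_Gs hc (bE e)) hT)
  have hval : ∀ T ∈ Ico (0 : ℝ) 1, ∫ q, (Gs V T (dat p n e q) + Gs V T (sw9 (dat p n e q)))
      ∂(μ.prod μ) = 2 * Phi μ p n e V T := by
    intro T hT
    have e1 : (fun q => Gs V T (sw9 (dat p n e q))) = fun q : X × X =>
        Gs V T (dat p n e q.swap) := by
      funext q
      rw [sw_dat]
    have h1 := hint T hT
    have h2 : Integrable (fun q => Gs V T (sw9 (dat p n e q))) (μ.prod μ) := by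
      rw [e1]
      exact h1.swap
    rw [integral_add h1 h2, e1, integral_prod_swap (μ := μ) (ν := μ)
      (fun q => Gs V T (dat p n e q))]
    unfold Phi
    ring
  intro a ha b hb hab
  have h1 := hanti ha hb hab
  simp only at h1
  rw [hval a ha, hval b hb] at h1
  linarith

end

end Vale.Agent.P224.OT
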