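import Vale.Agent.P224.OT.Mono
import Vale.Agent.P224.SO.LawG
import Vale.Agent.P224.PO.LawR
import Vale.Agent.P224.SO.Pd3

/-!
The law of a certificate with a parameter and a static part, odd dimension.
-/

namespace Vale.Agent.P224.OT.L

open MeasureTheory Set Filter Function Module Vale.Agent.P224 Vale.Agent.P224.UE
  Vale.Agent.P224.OT
open Vale.Agent.P224.SO Vale.Agent.P224.PO
open Vale.Agent.P224.SM2 hiding ker
open scoped Topology RealInnerProductSpace ENNReal ContDiff Manifold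

set_option linter.unusedSectionVars false

section

variable {X : Type*} [MeasurableSpace X] {E : Type*} [NormedAddCommGroup E]
  [InnerProductSpace ℝ E] [MeasurableSpace E] [BorelSpace E] [SecondCountableTopology E]
  {μ : Measure X} [IsFiniteMeasure μ] {m h : ℕ} {p n : X → E} {C S : ℝ}

/-- the constant of the flux -/
noncomputable def fluxC (m h : ℕ) (l : List SO.GT) : ℝ :=
  (l.map fun t => if t.fl h then t.c * kap2 m t.a t.q else 0).sum

lemma flux_sum (h : ℕ) (e : E) {l : List SO.GT} (hnn : ∀ x, ‖p x‖ = 1 ∧ ‖n x‖ = 1 ∧ ⟪p x, n x⟫ = 0)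
    (hw : ∀ t ∈ l, t.fl h → ∀ x N : E, ‖x‖ = 1 → ‖N‖ = 1 → ⟪x, N⟫ = 0 → t.w (dv x N x N e) = 1) :
    (l.map fun t => if t.fl h then t.c * (kap2 m t.a t.q
        * (S * ∫ y, t.w (dat p n e (y, y)) ∂μ)) else 0).sum
      = S * μ.real univ * fluxC m h l := by
  unfold fluxC
  induction l with
  | nil => simp
  | cons t l ih =>
    have ih' := ih fun u hu => hw u (List.mem_cons_of_mem _ hu)
    rw [List.map_cons, List.sum_cons, List.map_cons, List.sum_cons, ih', mul_add]
    congr 1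
    by_cases hf : t.fl h
    · have e1 : ∀ y, t.w (dat p n e (y, y)) = 1 := fun y =>
        hw t List.mem_cons_self hf _ _ (hnn y).1 (hnn y).2.1 (hnn y).2.2
      rw [if_pos hf, if_pos hf]
      simp only [e1, integral_const, smul_eq_mul, mul_one]
      ring
    · rw [if_neg hf, if_neg hf, mul_zero]

/-- the double integral of `c` -/
lemma int_c_eq [CompleteSpace E] (hG : TwoG μ m p n) :
    ∫ q, dat p n (0 : E) q 3 ∂(μ.prod μ) = ‖∫ x, n x ∂μ‖ ^ 2 := by
  have hP := hG.toPts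
  have i3 : Integrable (fun q => dat p n (0 : E) q 3) (μ.prod μ) :=
    integrable_param (f := fun d : R9 => d 3) _ (measurable_dat hP 0) (isCompact_KE (bE (0 : E)))
      (dat_mem hP 0) (by fun_prop) (by fun_prop)
  rw [integral_prod_symm _ i3]
  have e2 : ∀ z, ∫ x, dat p n (0 : E) (x, z) 3 ∂μ = ⟪n z, ∫ x, n x ∂μ⟫ := by
    intro z
    have := integral_in (μ := μ) hG.mn hG.nn (n z)
    refine Eq.trans ?_ (this.trans ?_)
    · rfl
    · exact real_inner_comm _ _
  simp only [e2]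
  have e3 := integral_in (μ := μ) hG.mn hG.nn (∫ x, n x ∂μ)
  rw [e3, real_inner_self_eq_norm_sq]

/-- the data functions near the diagonal -/
def Van2 (P : R9 → ℝ) : Prop :=
  ∀ B : ℝ, ∃ K : ℝ, ∀ d : R9, (∀ i, |d i| ≤ B) → -1 ≤ d 0 → d 0 ≤ 1 →
    |d 1| ≤ B * (1 - d 0) → |d 2| ≤ B * (1 - d 0) → |1 - d 3| ≤ B * (1 - d 0) →
      |P d| ≤ K * (1 - d 0) ^ 2

/-- a linear form which vanishes on the diagonal -/
def lin (a b c f : ℝ) (d : R9) : ℝ := a * (1 - d 0) + b * d 1 + c * d 2 + f * (1 - d 3)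

lemma lin_le (a b c f : ℝ) {B : ℝ} {d : R9} (h : d 0 ≤ 1)
    (h1 : |d 1| ≤ B * (1 - d 0)) (h2 : |d 2| ≤ B * (1 - d 0)) (h3 : |1 - d 3| ≤ B * (1 - d 0)) :
    |lin a b c f d| ≤ (|a| + |b| * B + |c| * B + |f| * B) * (1 - d 0) := by
  have h0 : 0 ≤ 1 - d 0 := by linarith
  unfold lin
  have e1 : |a * (1 - d 0)| = |a| * (1 - d 0) := by rw [abs_mul, abs_of_nonneg h0]
  have e2 : |b * d 1| ≤ |b| * (B * (1 - d 0)) := by
    rw [abs_mul]
    exact mul_le_mul_of_nonneg_left h1 (abs_nonneg _)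
  have e3 : |c * d 2| ≤ |c| * (B * (1 - d 0)) := by
    rw [abs_mul]
    exact mul_le_mul_of_nonneg_left h2 (abs_nonneg _)
  have e4 : |f * (1 - d 3)| ≤ |f| * (B * (1 - d 0)) := by
    rw [abs_mul]
    exact mul_le_mul_of_nonneg_left h3 (abs_nonneg _)
  have k1 := abs_add_le (a * (1 - d 0) + b * d 1 + c * d 2) (f * (1 - d 3))
  have k2 := abs_add_le (a * (1 - d 0) + b * d 1) (c * d 2)
  have k3 := abs_add_le (a * (1 - d 0)) (b * d 1)
  linarith

/-- a product of a continuous function and two linear forms -/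
lemma van2_mul {A : R9 → ℝ} (hA : Continuous A) (a b c f a' b' c' f' : ℝ) :
    Van2 fun d => A d * (lin a b c f d * lin a' b' c' f' d) := by
  intro B
  obtain ⟨K, hK⟩ := (isCompact_univ_pi fun _ : Fin 9 => isCompact_Icc (a := -B) (b := B)
    ).exists_bound_of_continuousOn hA.continuousOn
  refine ⟨|K| * ((|a| + |b| * |B| + |c| * |B| + |f| * |B|)
    * (|a'| + |b'| * |B| + |c'| * |B| + |f'| * |B|)), fun d hd hs0 hs1 h1 h2 h3 => ?_⟩
  have h0 : 0 ≤ 1 - d 0 := by linarith
  have hB : B * (1 - d 0) ≤ |B| * (1 - d 0) := mul_le_mul_of_nonneg_right (le_abs_self B) h0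
  have k1 := lin_le a b c f hs1 (h1.trans hB) (h2.trans hB) (h3.trans hB)
  have k2 := lin_le a' b' c' f' hs1 (h1.trans hB) (h2.trans hB) (h3.trans hB)
  have k3 : |A d| ≤ |K| := by
    have := hK d (fun i _ => abs_le.1 (hd i))
    rw [Real.norm_eq_abs] at this
    exact this.trans (le_abs_self K)
  simp only
  rw [abs_mul, abs_mul]
  calc |A d| * (|lin a b c f d| * |lin a' b' c' f' d|)
      ≤ |K| * (((|a| + |b| * |B| + |c| * |B| + |f| * |B|) * (1 - d 0))
        * ((|a'| + |b'| * |B| + |c'| * |B| + |f'| * |B|) * (1 - d 0))) := by gcongr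
    _ = _ := by ring

lemma Van2.add {P Q : R9 → ℝ} (hP : Van2 P) (hQ : Van2 Q) : Van2 fun d => P d + Q d := by
  intro B
  obtain ⟨K, hK⟩ := hP B
  obtain ⟨K', hK'⟩ := hQ B
  refine ⟨K + K', fun d h1 h2 h3 h4 h5 h6 => ?_⟩
  have a := hK d h1 h2 h3 h4 h5 h6
  have b := hK' d h1 h2 h3 h4 h5 h6
  have c := abs_add_le (P d) (Q d)
  simp only
  linarith

/-- a term of the static part: coefficient, derivative, exponent of the kernel, polynomial -/
structure HV where
  /-- the coefficient -/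
  a : ℝ → ℝ
  /-- its derivative -/
  a' : ℝ → ℝ
  /-- the exponent of the kernel -/
  q : ℕ
  /-- the function -/
  P : R9 → ℝ

/-- the term as a value term -/
noncomputable def HV.v (t : HV) : VTm := ⟨t.a, t.a', t.q, t.P⟩

/-- the value of the term at `T = 1` -/
noncomputable def HV.L (t : HV) (d : R9) : ℝ := t.a 1 * (t.P d * SM2.ker 1 t.q (d 0))

/-- the regularity of a term of the static part -/
structure HV.Reg (m : ℕ) (t : HV) : Prop where
  hP : Continuous t.P
  hb : Van2 t.P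
  hq : 2 * t.q < m + 4
  hm : Measurable t.a
  hm' : Measurable t.a'
  hc : ContinuousOn t.a (Icc 0 1)
  hc' : ContinuousOn t.a' (Ioo 0 1)
  hd : ∀ T ∈ Ioo (0 : ℝ) 1, HasDerivAt t.a (t.a' T) T

/-- the static functional -/
noncomputable def Lst (l : List HV) (d : R9) : ℝ := (l.map fun t => t.L d).sum

lemma HV.Reg.v {t : HV} (h : t.Reg m) : t.v.Reg :=
  ⟨h.hP, h.hm, h.hm', h.hc.mono Ico_subset_Icc_self, h.hc', h.hd⟩

/-- the limit of a term of the static part -/
theorem HV.lim (hD : EmbD μ m p n C S) (hm : 0 < m) (e : E) {t : HV} (ht : t.Reg m) :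
    Integrable (fun y => t.P (dat p n e y) * SM2.ker 1 t.q (dat p n e y 0)) (μ.prod μ) ∧
    Tendsto (fun T => t.a T * ∫ y, t.P (dat p n e y) * SM2.ker T t.q (dat p n e y 0)
      ∂(μ.prod μ)) (𝓝[<] 1)
      (𝓝 (t.a 1 * ∫ y, t.P (dat p n e y) * SM2.ker 1 t.q (dat p n e y 0) ∂(μ.prod μ))) := by
  have hG := hD.toTwoG
  have hPt := hG.toPts
  obtain ⟨K, hK⟩ := ht.hb (bC (max C 1) e + max C 1)
  have hint : Integrable (fun y => (|K| * 2 ^ t.q * 2 ^ (4 + (m - 1)))
      * sg (m - 1) (dat p n e y 0)) (μ.prod μ) :=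
    (hG.integrable_sg hm e (by omega)).const_mul _
  have hfm : ∀ T, AEStronglyMeasurable (fun y => t.P (dat p n e y)
      * SM2.ker T t.q (dat p n e y 0)) (μ.prod μ) := by
    intro T
    have h1 := (ht.hP.measurable.comp (measurable_dat hPt e)).mul
      ((SM2.measurable_ker T t.q).comp (measurable_dat0 hPt e))
    exact h1.aestronglyMeasurable
  have hdom : ∀ T ∈ Icc (0 : ℝ) 1, ∀ᵐ y ∂(μ.prod μ),
      ‖t.P (dat p n e y) * SM2.ker T t.q (dat p n e y 0)‖
        ≤ (|K| * 2 ^ t.q * 2 ^ (4 + (m - 1))) * sg (m - 1) (dat p n e y 0) := by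
    intro T hT
    filter_upwards [hG.ae_lt hm e] with y hy
    have hcb := hD.contact.cb hPt e hy
    have hc1 := hD.contact y.1 y.2
    have hC0 : 0 ≤ max C 1 := zero_le_one.trans (le_max_right _ _)
    have hb0 : 0 ≤ bC (max C 1) e := by
      unfold bC
      positivity
    have hw : 0 < 1 - dat p n e y 0 := by linarith
    have h3 : |1 - dat p n e y 3| ≤ (bC (max C 1) e + max C 1) * (1 - dat p n e y 0) := by
      have e1 : dat p n e y 3 = ⟪n y.1, n y.2⟫ := rfl
      have e2 : dat p n e y 0 = ⟪p y.1, p y.2⟫ := rfl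
      have e3 : ‖n y.1 - n y.2‖ ^ 2 = 2 * (1 - ⟪n y.1, n y.2⟫) := by
        rw [norm_sub_sq_real, hD.nn, hD.nn]
        ring
      have h4 := hc1.2
      rw [e3, ← e1, ← e2] at h4
      have h5 : C * (1 - dat p n e y 0) ≤ max C 1 * (1 - dat p n e y 0) :=
        mul_le_mul_of_nonneg_right (le_max_left _ _) hw.le
      have h6 : 0 ≤ 1 - dat p n e y 3 := by
        have := sq_nonneg ‖n y.1 - n y.2‖
        rw [e3, ← e1] at this
        linarith
      rw [abs_of_nonneg h6, add_mul]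
      have := mul_nonneg hb0 hw.le
      linarith
    have hle : ∀ u : ℝ, u ≤ bC (max C 1) e * (1 - dat p n e y 0) →
        u ≤ (bC (max C 1) e + max C 1) * (1 - dat p n e y 0) := by
      intro u hu
      rw [add_mul]
      have := mul_nonneg hC0 hw.le
      linarith
    have h7 := hK (dat p n e y) (fun i => (hcb.b i).trans (by linarith)) hcb.s0 hcb.s1.le
      (hle _ hcb.t) (hle _ hcb.p) h3
    set r := √(1 - dat p n e y 0) with hr
    have hr0 : 0 < r := Real.sqrt_pos.2 hw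
    have hrs : r ^ 2 = 1 - dat p n e y 0 := Real.sq_sqrt hw.le
    have hr2 : r ≤ 2 := by
      rw [hr, Real.sqrt_le_left (by norm_num)]
      linarith [hcb.s0]
    have kB := ker_le_r hT.1 hT.2 hr0 hcb.s0 hrs t.q
    have keyB := rpow_key (a := 4) (b := 2 * t.q) (l := m - 1) hr0 hr2 (by have := ht.hq; omega)
    have e1 : sg (m - 1) (dat p n e y 0) = (r ^ (m - 1))⁻¹ := rfl
    have e2 : (1 - dat p n e y 0) ^ 2 = r ^ 4 := by rw [← hrs]; ring
    rw [Real.norm_eq_abs, abs_mul, e1]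
    rw [e2] at h7
    calc |t.P (dat p n e y)| * |SM2.ker T t.q (dat p n e y 0)|
        ≤ (K * r ^ 4) * (2 ^ t.q * (r ^ (2 * t.q))⁻¹) :=
          mul_le_mul h7 kB (abs_nonneg _) ((abs_nonneg _).trans h7)
      _ ≤ (|K| * r ^ 4) * (2 ^ t.q * (r ^ (2 * t.q))⁻¹) := by
          gcongr
          exact le_abs_self K
      _ = |K| * 2 ^ t.q * (r ^ 4 * (r ^ (2 * t.q))⁻¹) := by ring
      _ ≤ |K| * 2 ^ t.q * (2 ^ (4 + (m - 1)) * (r ^ (m - 1))⁻¹) := by gcongr
      _ = _ := by ring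
  have h01 : (1 : ℝ) ∈ Icc (0 : ℝ) 1 := ⟨zero_le_one, le_rfl⟩
  refine ⟨hint.mono' (hfm 1) (hdom 1 h01), ?_⟩
  have h0 : ∀ᶠ T in 𝓝[<] (1 : ℝ), T ∈ Ioo (0 : ℝ) 1 := Ioo_mem_nhdsLT one_pos
  refine Tendsto.mul ?_ ?_
  · exact (ht.hc 1 h01).tendsto.mono_left (nhdsWithin_le_of_mem
      (mem_of_superset (Ioo_mem_nhdsLT one_pos) Ioo_subset_Icc_self))
  · refine tendsto_integral_filter_of_dominated_convergence _ (Eventually.of_forall hfm) ?_ hint ?_
    · filter_upwards [h0] with T hT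
      exact hdom T ⟨hT.1.le, hT.2.le⟩
    · filter_upwards [hG.ae_lt hm e] with y hy
      have hcont := contAt_ker (s := dat p n e y 0) hy t.q
      exact (hcont.tendsto.mono_left nhdsWithin_le_nhds).const_mul _

lemma integrable_Lst (hD : EmbD μ m p n C S) (hm : 0 < m) (e : E) {l : List HV}
    (hl : ∀ t ∈ l, t.Reg m) : Integrable (fun y => Lst l (dat p n e y)) (μ.prod μ) ∧
      ∫ y, Lst l (dat p n e y) ∂(μ.prod μ)
        = (l.map fun t => t.a 1 * ∫ y, t.P (dat p n e y) * SM2.ker 1 t.q (dat p n e y 0)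
          ∂(μ.prod μ)).sum := by
  induction l with
  | nil =>
    refine ⟨?_, ?_⟩
    · simp [Lst]
    · simp [Lst]
  | cons t l ih =>
    obtain ⟨i1, i2⟩ := ih fun u hu => hl u (List.mem_cons_of_mem _ hu)
    have j1 := (HV.lim hD hm e (hl t List.mem_cons_self)).1
    have e1 : (fun y => Lst (t :: l) (dat p n e y))
        = fun y => t.a 1 * (t.P (dat p n e y) * SM2.ker 1 t.q (dat p n e y 0))
          + Lst l (dat p n e y) := by
      funext y
      simp [Lst, HV.L]
    rw [e1]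
    refine ⟨(j1.const_mul _).add i1, ?_⟩
    rw [integral_add (j1.const_mul _) i1, integral_const_mul, i2, List.map_cons, List.sum_cons]

/-- the law of a certificate with a parameter and a static part -/
theorem law_P [CompleteSpace E] (hD : EmbD μ m p n C S) (hmh : m = 2 * h + 1)
    (l : List SO.GT) (hr : ∀ t ∈ l, t.Reg) (hok : ∀ t ∈ l, t.ok h)
    (hw : ∀ t ∈ l, t.fl h → ∀ x N : E, ‖x‖ = 1 → ‖N‖ = 1 → ⟪x, N⟫ = 0 →
      t.w (dv x N x N 0) = 1)
    (lH : List HV) (hH : ∀ t ∈ lH, t.Reg m)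
    {Ro : ℝ → R9 → ℝ} (hRn : ∀ T ∈ Ico (0 : ℝ) 1, Null μ p n 0 (Ro T))
    (hpos : ∀ T ∈ Ioo (0 : ℝ) 1, ∀ x N y w : E, ‖x‖ = 1 → ‖N‖ = 1 → ‖y‖ = 1 → ‖w‖ = 1 →
      ⟪x, N⟫ = 0 → ⟪y, w⟫ = 0 → gS' (l.map GT.v) T (dv x N y w 0)
        + gS' (lH.map HV.v) T (dv x N y w 0) ≤ Ro T (dv x N y w 0))
    {γ : ℝ} {R : R9 → ℝ} (hRc : Continuous R)
    (hR : 0 ≤ ∫ q, R (dat p n 0 q) ∂(μ.prod μ))
    (h0 : ∀ x N y w : E, ‖x‖ = 1 → ‖N‖ = 1 → ‖y‖ = 1 → ‖w‖ = 1 → ⟪x, N⟫ = 0 → ⟪y, w⟫ = 0 →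
      (l.map fun t => t.φ 0 * t.Q (dv x N y w 0)).sum
          + (lH.map fun t => t.a 0 * t.P (dv x N y w 0)).sum
        ≤ 1 + γ * dv x N y w (0 : E) 3 - R (dv x N y w 0) + Ro 0 (dv x N y w 0)) :
    ∫ q, Lst lH (dat p n 0 q) ∂(μ.prod μ) + fluxC m h l * S * μ.real univ
      ≤ μ.real univ ^ 2 + γ * ‖∫ x, n x ∂μ‖ ^ 2 := by
  have hG := hD.toTwoG
  have hP := hG.toPts
  have hm : 0 < m := by omega
  have hfl := flux_sum (S := S) h (0 : E) (μ := μ) (m := m)
    (fun x => ⟨hD.np x, hD.nn x, hD.pn x⟩) hw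
  obtain ⟨iL, eL⟩ := integrable_Lst hD hm (0 : E) hH
  set l1 : List (VTm × ℝ) := l.map fun t => (t.v,
    if t.fl h then t.c * (kap2 m t.a t.q * (S * ∫ y, t.w (dat p n 0 (y, y)) ∂μ)) else 0) with hl1
  set l2 : List (VTm × ℝ) := lH.map fun t => (t.v,
    t.a 1 * ∫ y, t.P (dat p n 0 y) * SM2.ker 1 t.q (dat p n 0 y 0) ∂(μ.prod μ)) with hl2
  have f1 : l1.map Prod.fst = l.map GT.v := by
    rw [hl1, List.map_map]
    rfl
  have f2 : l2.map Prod.fst = lH.map HV.v := by
    rw [hl2, List.map_map]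
    rfl
  have key := law_S hG.toTwoE (0 : E) (l1 ++ l2)
    (fun u hu => by
      rcases List.mem_append.1 hu with hu | hu
      · obtain ⟨t, ht, rfl⟩ := List.mem_map.1 hu
        exact (hr t ht).v
      · obtain ⟨t, ht, rfl⟩ := List.mem_map.1 hu
        exact (hH t ht).v)
    (fun u hu => by
      rcases List.mem_append.1 hu with hu | hu
      · obtain ⟨t, ht, rfl⟩ := List.mem_map.1 hu
        simp only
        by_cases hf : t.fl h
        · rw [if_pos hf]
          exact GT.lim_flux hD hmh 0 (hr t ht) hf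
        · rw [if_neg hf]
          rcases hok t ht with h3 | h3
          · exact absurd h3 hf
          · exact GT.lim_null hD hmh 0 (hr t ht) h3
      · obtain ⟨t, ht, rfl⟩ := List.mem_map.1 hu
        exact (HV.lim hD hm 0 (hH t ht)).2)
    (fun T hT => ⟨_, hRn T ⟨hT.1.le, hT.2⟩, fun x N y w a1 a2 a3 a4 a5 a6 => by
      rw [List.map_append, f1, f2]
      have e1 : gS' (l.map GT.v ++ lH.map HV.v) T (dv x N y w 0)
          = gS' (l.map GT.v) T (dv x N y w 0) + gS' (lH.map HV.v) T (dv x N y w 0) := by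
        unfold gS'
        rw [List.map_append, List.sum_append]
      rw [e1]
      exact hpos T hT x N y w a1 a2 a3 a4 a5 a6⟩)
  have g1 : ((l1 ++ l2).map fun t => t.2).sum
      = S * μ.real univ * fluxC m h l + ∫ q, Lst lH (dat p n 0 q) ∂(μ.prod μ) := by
    rw [List.map_append, List.sum_append, eL, ← hfl, hl1, hl2, List.map_map, List.map_map]
    rfl
  rw [g1] at key
  have g2 : ∀ y, ((l1 ++ l2).map fun t => t.1.φ 0 * t.1.Q (dat p n 0 y)).sum
      = (l.map fun t => t.φ 0 * t.Q (dat p n 0 y)).sum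
        + (lH.map fun t => t.a 0 * t.P (dat p n 0 y)).sum := by
    intro y
    rw [List.map_append, List.sum_append, hl1, hl2, List.map_map, List.map_map]
    rfl
  simp only [g2] at key
  have hint : ∀ {G : R9 → ℝ}, Continuous G → Integrable (fun q => G (dat p n 0 q)) (μ.prod μ) :=
    fun hG' => integrable_param _ (measurable_dat hP 0) (isCompact_KE (bE (0 : E)))
      (dat_mem hP 0) hG'.measurable hG'.continuousOn
  have iR : Integrable (fun q => R (dat p n 0 q)) (μ.prod μ) := hint hRc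
  have i3 : Integrable (fun q => dat p n (0 : E) q 3) (μ.prod μ) :=
    hint (G := fun d => d 3) (by fun_prop)
  have iN := hRn 0 ⟨le_rfl, one_pos⟩
  have c1 : Continuous fun d : R9 => (l.map fun t => t.φ 0 * t.Q d).sum := by
    clear key hint iR i3 iN h0 hpos hok hw g1 g2 f1 hfl hl1 l1
    induction l with
    | nil => simpa using continuous_const
    | cons t l ih =>
      simp only [List.map_cons, List.sum_cons]
      exact (continuous_const.mul (GT.continuous_Q (hr t List.mem_cons_self).hw)).add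
        (ih fun u hu => hr u (List.mem_cons_of_mem _ hu))
  have c2 : Continuous fun d : R9 => (lH.map fun t => t.a 0 * t.P d).sum := by
    clear key hint iR i3 iN h0 hpos hok hw g1 g2 f2 hfl hl2 l2 iL eL
    induction lH with
    | nil => simpa using continuous_const
    | cons t l ih =>
      simp only [List.map_cons, List.sum_cons]
      exact (continuous_const.mul (hH t List.mem_cons_self).hP).add
        (ih fun u hu => hH u (List.mem_cons_of_mem _ hu))
  have iG : Integrable (fun q => (l.map fun t => t.φ 0 * t.Q (dat p n 0 q)).sum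
      + (lH.map fun t => t.a 0 * t.P (dat p n 0 q)).sum) (μ.prod μ) :=
    hint (G := fun d => (l.map fun t => t.φ 0 * t.Q d).sum
      + (lH.map fun t => t.a 0 * t.P d).sum) (c1.add c2)
  have hK := int_c_eq hG
  have j0 : Integrable (fun _ : X × X => (1 : ℝ)) (μ.prod μ) := integrable_const _
  have j1 : Integrable (fun q => γ * dat p n (0 : E) q 3) (μ.prod μ) := i3.const_mul _
  have j2 : Integrable (fun q => 1 + γ * dat p n (0 : E) q 3) (μ.prod μ) := j0.add j1
  have j3 : Integrable (fun q => 1 + γ * dat p n (0 : E) q 3 - R (dat p n 0 q)) (μ.prod μ) :=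
    j2.sub iR
  have hle : ∫ q, ((l.map fun t => t.φ 0 * t.Q (dat p n 0 q)).sum
        + (lH.map fun t => t.a 0 * t.P (dat p n 0 q)).sum) ∂(μ.prod μ)
      ≤ ∫ q, (1 + γ * dat p n (0 : E) q 3 - R (dat p n 0 q)
          + Ro 0 (dat p n 0 q)) ∂(μ.prod μ) := by
    refine integral_mono iG (j3.add iN.1) fun q => ?_
    exact h0 _ _ _ _ (hD.np _) (hD.nn _) (hD.np _) (hD.nn _) (hD.pn _) (hD.pn _)
  have hAA : (μ.prod μ).real univ = μ.real univ ^ 2 := by
    rw [measureReal_def, measureReal_def, ← univ_prod_univ, Measure.prod_prod,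
      ENNReal.toReal_mul, sq]
  rw [integral_add j3 iN.1, iN.2, integral_sub j2 iR, integral_add j0 j1,
    integral_const_mul, integral_const, smul_eq_mul, hAA, hK] at hle
  have hk := key.trans hle
  linarith

end

end Vale.Agent.P224.OT.L
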